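import Vale.Agent.P039.Bz.Stmt
import Vale.Agent.P039.H183.Rank
import Vale.Agent.P039.H484.Hall2

/-! Step 5: two disjoint matchings exist. -/

namespace Vale.Agent.P039.H44

open Vale.Agent.P039 Vale.Agent.P039.Bn Finset

variable {B W V : Type} (M : PMap B W V)

/-- the labelled web of a map -/
def lab : Sk.Lab (⟨M.e⟩ : Sk.Web B W) V := ⟨M.c, M.step, M.exact, M.cls, M.surj⟩

/-- The edge `(b, i)` lies on a face of `K`. -/
def On (K : Finset V) (p : B × Fin 3) : Prop := M.c (p.2 + 1) p.1 ∈ K ∨ M.c (p.2 + 2) p.1 ∈ K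

theorem const_of_dual (hc : M.Conn) (A : V → ℝ)
    (h : ∀ (b : B) (i : Fin 3), A (M.c (i + 1) b) = A (M.c (i + 2) b)) (v v' : V) :
    A v = A v' := by
  have h1 : ∀ (b : B) (i j : Fin 3), A (M.c i b) = A (M.c j b) := by
    intro b i j
    rcases Bn.fcase i j with rfl | rfl | rfl
    · rfl
    · have := h b (j + 2)
      rw [Bn.f21, Bn.f22] at this
      exact this.symm
    · have := h b (j + 1)
      rw [Bn.f11, Bn.f12] at this
      exact this
  have h2 : ∀ b b' : B, Relation.EqvGen (fun x y => ∃ j, M.c j x = M.c j y) b b' →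
      A (M.c 0 b) = A (M.c 0 b') := by
    intro b b' hb
    induction hb with
    | rel x y hxy =>
      obtain ⟨j, hj⟩ := hxy
      rw [h1 x 0 j, hj, h1 y j 0]
    | refl x => rfl
    | symm x y _ ih => exact ih.symm
    | trans x y z _ _ ih1 ih2 => exact ih1.trans ih2
  obtain ⟨j, b, rfl⟩ := M.surj v
  obtain ⟨j', b', rfl⟩ := M.surj v'
  rw [h1 b j 0, h1 b' j' 0]
  exact h2 b b' (hc b b')

theorem s_const {K : Finset V} {s : B → ℝ} {t : W → ℝ}
    (hst : ∀ p : B × Fin 3, On M K p → s p.1 = t (M.e p.2 p.1)) {j : Fin 3} {b b' : B}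
    (h : Relation.EqvGen (fun x y => M.e (j + 1) y = M.e (j + 2) x) b b') :
    M.c j b = M.c j b' ∧ (M.c j b ∈ K → s b = s b') := by
  induction h with
  | rel x y hxy =>
    have h1 := M.step j x y hxy
    refine ⟨h1.symm, fun hK => ?_⟩
    have h2 := hst (x, j + 2) (Or.inl (by rw [Bn.f21]; exact hK))
    have h3 := hst (y, j + 1) (Or.inr (by rw [Bn.f12, h1]; exact hK))
    simp only at h2 h3
    rw [h2, h3, hxy]
  | refl x => exact ⟨rfl, fun _ => rfl⟩
  | symm x y _ ih => exact ⟨ih.1.symm, fun hK => (ih.2 (by rw [ih.1]; exact hK)).symm⟩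
  | trans x y z _ _ ih1 ih2 =>
    exact ⟨ih1.1.trans ih2.1, fun hK => (ih1.2 hK).trans (ih2.2 (by rw [← ih1.1]; exact hK))⟩

theorem fin3_ex {P : Fin 3 → Prop} : (∃ i, P (i + 1) ∨ P (i + 2)) ↔ ∃ i, P i := by
  constructor
  · rintro ⟨i, h | h⟩
    · exact ⟨_, h⟩
    · exact ⟨_, h⟩
  · rintro ⟨i, h⟩
    exact ⟨i + 1, Or.inr (by rw [Bn.f12]; exact h)⟩

open Classical in
/-- number of faces of `b` in `K` -/
noncomputable def nb (K : Finset V) (b : B) : ℕ := (univ.filter fun j => M.c j b ∈ K).card

open Classical in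
theorem local_count (K : Finset V) (b : B) :
    min 2 (nb M K b) + (if ∃ i, On M K (b, i) then 1 else 0) =
      (univ.filter fun i => On M K (b, i)).card := by
  have h0 : (∃ i, On M K (b, i)) ↔ ∃ i, M.c i b ∈ K := fin3_ex (P := fun i => M.c i b ∈ K)
  have e1 : (0 : Fin 3) + 1 = 1 := by decide
  have e2 : (0 : Fin 3) + 2 = 2 := by decide
  have e3 : (1 : Fin 3) + 1 = 2 := by decide
  have e4 : (1 : Fin 3) + 2 = 0 := by decide
  have e5 : (2 : Fin 3) + 1 = 0 := by decide
  have e6 : (2 : Fin 3) + 2 = 1 := by decide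
  have h1 : (∃ i, M.c i b ∈ K) ↔ (M.c 0 b ∈ K ∨ M.c 1 b ∈ K ∨ M.c 2 b ∈ K) := by
    constructor
    · rintro ⟨i, hi⟩
      fin_cases i
      · exact Or.inl hi
      · exact Or.inr (Or.inl hi)
      · exact Or.inr (Or.inr hi)
    · rintro (h | h | h)
      · exact ⟨_, h⟩
      · exact ⟨_, h⟩
      · exact ⟨_, h⟩
  simp only [h0, h1]
  unfold nb
  rw [card_filter, card_filter, Fin.sum_univ_three, Fin.sum_univ_three]
  simp only [On, e1, e2, e3, e4, e5, e6]
  by_cases a : M.c 0 b ∈ K <;> by_cases c : M.c 1 b ∈ K <;> by_cases d : M.c 2 b ∈ K <;>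
    simp [a, c, d]

open Classical in
/-- black vertices on `K` -/
noncomputable def SB [Fintype B] (K : Finset V) : Finset B :=
  univ.filter fun b => ∃ i, On M K (b, i)

open Classical in
/-- white vertices on `K` -/
noncomputable def SW [Fintype B] [Fintype W] (K : Finset V) : Finset W :=
  univ.filter fun w => ∃ p : B × Fin 3, M.e p.2 p.1 = w ∧ On M K p

open Classical in
/-- edges on `K` -/
noncomputable def ES [Fintype B] (K : Finset V) : Finset (B × Fin 3) :=
  univ.filter fun p => On M K p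

theorem mem_SB [Fintype B] {K : Finset V} {b : B} : b ∈ SB M K ↔ ∃ i, On M K (b, i) := by
  simp [SB]

theorem mem_SB' [Fintype B] {K : Finset V} {b : B} : b ∈ SB M K ↔ ∃ i, M.c i b ∈ K := by
  rw [mem_SB]
  exact fin3_ex (P := fun i => M.c i b ∈ K)

theorem mem_SW [Fintype B] [Fintype W] {K : Finset V} {w : W} :
    w ∈ SW M K ↔ ∃ p : B × Fin 3, M.e p.2 p.1 = w ∧ On M K p := by
  simp [SW]

theorem mem_ES [Fintype B] {K : Finset V} {p : B × Fin 3} : p ∈ ES M K ↔ On M K p := by
  simp [ES]

theorem sum_nb [Fintype B] (K : Finset V) :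
    (∑ b, min 2 (nb M K b)) + (SB M K).card = (ES M K).card := by
  classical
  have h1 : (ES M K).card = ∑ b : B, (univ.filter fun i => On M K (b, i)).card := by
    unfold ES
    rw [card_filter, Fintype.sum_prod_type]
    refine sum_congr rfl fun b _ => ?_
    rw [card_filter]
  rw [h1, SB, card_filter, ← sum_add_distrib]
  exact sum_congr rfl fun b _ => local_count M K b

/-- No black vertex has faces in both parts: excluded. -/
def KConn (K : Finset V) : Prop :=
  ∀ A ⊆ K, A.Nonempty → A ≠ K → ∃ b i j, M.c i b ∈ A ∧ M.c j b ∈ K ∧ M.c j b ∉ A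

theorem rank_K [Fintype B] [Fintype W] (hc : M.Conn) {K : Finset V} (hK : KConn M K)
    (hne : ∃ v, v ∉ K) (hK0 : K.Nonempty) :
    K.card + (SB M K).card + (SW M K).card ≤ (ES M K).card + 1 := by
  classical
  refine H183.rank_ineq (lab M) (SB M K) (SW M K) (ES M K) K ?_ ?_ ?_ hne
  · intro s t hst
    have hst' : ∀ p : B × Fin 3, On M K p → s p.1 = t (M.e p.2 p.1) :=
      fun p hp => hst p ((mem_ES M).2 hp)
    obtain ⟨v0, hv0⟩ := hK0
    obtain ⟨j0, b0, rfl⟩ := M.surj v0
    refine ⟨s b0, ?_⟩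
    have hA : K.filter (fun v => ∀ b j, M.c j b = v → s b = s b0) = K := by
      by_contra hcon
      obtain ⟨b, i, j, h1, h2, h3⟩ := hK _ (filter_subset _ K)
        ⟨M.c j0 b0, mem_filter.2 ⟨hv0, fun b j hb => by
          have hj := M.cls _ _ _ _ hb
          subst hj
          exact (s_const M hst' (M.exact _ _ _ hb)).2 (by rw [hb]; exact hv0)⟩⟩ hcon
      apply h3
      refine mem_filter.2 ⟨h2, fun b' j' hb' => ?_⟩
      have h4 : s b = s b0 := (mem_filter.1 h1).2 b i rfl
      have hj := M.cls _ _ _ _ hb'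
      subst hj
      rw [← h4]
      exact (s_const M hst' (M.exact _ _ _ hb')).2 (by rw [hb']; exact h2)
    have hall : ∀ b j, M.c j b ∈ K → s b = s b0 := by
      intro b j hb
      rw [← hA] at hb
      exact (mem_filter.1 hb).2 b j rfl
    have hB : ∀ b ∈ SB M K, s b = s b0 := by
      intro b hb
      obtain ⟨i, hi⟩ := (mem_SB' M).1 hb
      exact hall b i hi
    refine ⟨hB, ?_⟩
    intro w hw
    obtain ⟨p, hp, hon⟩ := (mem_SW M).1 hw
    rw [← hp, ← hst' p hon]
    exact hB _ ((mem_SB M).2 ⟨p.2, hon⟩)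
  · intro p hp
    rw [mem_ES] at hp
    unfold On at hp
    push Not at hp
    exact hp
  · exact fun A hA v v' => const_of_dual M hc A hA v v'

section cut

variable [Fintype B] (S : Finset B) (T : Finset W)

open Classical in
noncomputable def ct : ℕ := (univ.filter fun p : Fin 3 × B => p.2 ∈ S ∧ M.e p.1 p.2 ∈ T).card

open Classical in
noncomputable def cx : ℕ := (univ.filter fun p : Fin 3 × B => p.2 ∈ S ∧ M.e p.1 p.2 ∉ T).card

open Classical in
noncomputable def cy : ℕ := (univ.filter fun p : Fin 3 × B => p.2 ∉ S ∧ M.e p.1 p.2 ∈ T).card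

theorem three_S : 3 * S.card = ct M S T + cx M S T := by
  classical
  unfold ct cx
  rw [← card_union_of_disjoint]
  · have h1 : (univ.filter fun p : Fin 3 × B => p.2 ∈ S ∧ M.e p.1 p.2 ∈ T) ∪
        (univ.filter fun p : Fin 3 × B => p.2 ∈ S ∧ M.e p.1 p.2 ∉ T) =
        (univ : Finset (Fin 3)) ×ˢ S := by
      ext p
      simp only [mem_union, mem_filter, mem_univ, true_and, mem_product]
      tauto
    rw [h1, card_product, card_univ, Fintype.card_fin]
  · rw [disjoint_left]
    intro p h1 h2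
    simp only [mem_filter, mem_univ, true_and] at h1 h2
    exact h2.2 h1.2

theorem three_T [Fintype W] : 3 * T.card = ct M S T + cy M S T := by
  classical
  unfold ct cy
  rw [← card_union_of_disjoint]
  · have h1 : (univ.filter fun p : Fin 3 × B => p.2 ∈ S ∧ M.e p.1 p.2 ∈ T) ∪
        (univ.filter fun p : Fin 3 × B => p.2 ∉ S ∧ M.e p.1 p.2 ∈ T) =
        univ.filter fun p : Fin 3 × B => M.e p.1 p.2 ∈ T := by
      ext p
      simp only [mem_union, mem_filter, mem_univ, true_and]
      tauto
    rw [h1, card_filter, Fintype.sum_prod_type]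
    have h2 : ∀ i : Fin 3, (∑ b : B, if M.e i b ∈ T then 1 else 0) = T.card := by
      intro i
      rw [Fintype.sum_equiv (M.e i) _ (fun w => if w ∈ T then 1 else 0) (fun b => rfl)]
      simp
    simp only [h2]
    rw [sum_const, card_univ, Fintype.card_fin, smul_eq_mul]
  · rw [disjoint_left]
    intro p h1 h2
    simp only [mem_filter, mem_univ, true_and] at h1 h2
    exact h2.1 h1.1

theorem cutc_eq : Bz.cutc M (↑S : Set B) (↑T : Set W) = cx M S T + cy M S T := by
  classical
  unfold Bz.cutc cx cy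
  rw [← card_union_of_disjoint]
  · congr 1
    ext p
    simp only [mem_union, mem_filter, mem_univ, true_and, mem_coe]
    tauto
  · rw [disjoint_left]
    intro p h1 h2
    simp only [mem_filter, mem_univ, true_and] at h1 h2
    exact h2.1 h1.1

end cut

theorem ES_le [Fintype B] [Fintype W] (K : Finset V) :
    (ES M K).card ≤ ct M (SB M K) (SW M K) := by
  classical
  unfold ct
  refine card_le_card_of_injOn (fun p => (p.2, p.1)) ?_ ?_
  · intro p hp
    have hp' : On M K p := (mem_ES M).1 hp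
    rw [mem_coe, mem_filter]
    exact ⟨mem_univ _, (mem_SB M).2 ⟨p.2, hp'⟩, (mem_SW M).2 ⟨p, rfl, hp'⟩⟩
  · rintro ⟨a, b⟩ - ⟨c, d⟩ - h
    simp only [Prod.mk.injEq] at h
    exact Prod.ext h.2 h.1

/-- the counting for a connected set of faces -/
theorem ineq_conn [Fintype B] [Fintype W] (hc : M.Conn) (h3 : Bz.C3 M) (h4 : Bz.C4 M) (b₀ : B)
    {K : Finset V} (hb : ∀ j, M.c j b₀ ∉ K) (hK : KConn M K) (hK0 : K.Nonempty) :
    2 * K.card ≤ ∑ b, min 2 (nb M K b) := by
  classical
  have hr := rank_K M hc hK ⟨_, hb 0⟩ hK0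
  have hs := sum_nb M K
  have h5 := three_S M (SB M K) (SW M K)
  have h6 := three_T M (SB M K) (SW M K)
  have h7 := cutc_eq M (SB M K) (SW M K)
  have h8 := ES_le M K
  have hb0 : b₀ ∉ SB M K := by
    intro h
    obtain ⟨i, hi⟩ := (mem_SB' M).1 h
    exact hb i hi
  have hSB : ∃ b, b ∈ SB M K := by
    obtain ⟨v, hv⟩ := hK0
    obtain ⟨j, b, rfl⟩ := M.surj v
    exact ⟨b, (mem_SB' M).2 ⟨j, hv⟩⟩
  have hSW : ∃ w, w ∈ SW M K := by
    obtain ⟨b, hb⟩ := hSB
    obtain ⟨i, hi⟩ := (mem_SB M).1 hb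
    exact ⟨_, (mem_SW M).2 ⟨_, rfl, hi⟩⟩
  have h9 : 3 ≤ cx M (SB M K) (SW M K) + cy M (SB M K) (SW M K) := by
    rw [← h7]
    exact h3 _ _ (Or.inl hSB) (Or.inl ⟨b₀, hb0⟩)
  have h10 : cx M (SB M K) (SW M K) + cy M (SB M K) (SW M K) = 3 →
      cx M (SB M K) (SW M K) = 0 := by
    intro h
    rcases h4 _ _ (h7.trans h) with h | h
    · rw [Set.ncard_coe_finset, Set.ncard_coe_finset] at h
      have a1 : 0 < (SB M K).card := card_pos.2 hSB
      have a2 : 0 < (SW M K).card := card_pos.2 hSW
      omega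
    · have a1 : 0 < ((↑(SB M K) : Set B)ᶜ).ncard := (Set.ncard_pos (Set.toFinite _)).2 ⟨b₀, hb0⟩
      have a2 : ((↑(SW M K) : Set W)ᶜ).ncard = 0 := by omega
      rw [Set.ncard_eq_zero (Set.toFinite _)] at a2
      unfold cx
      rw [card_eq_zero, filter_eq_empty_iff]
      rintro p - ⟨-, hp⟩
      have : M.e p.1 p.2 ∈ ((↑(SW M K) : Set W)ᶜ) := hp
      rw [a2] at this
      exact this
  omega

theorem ineq_all [Fintype B] [Fintype W] (hc : M.Conn) (h3 : Bz.C3 M) (h4 : Bz.C4 M) (b₀ : B) :
    ∀ (n : ℕ) (K : Finset V), K.card = n → (∀ j, M.c j b₀ ∉ K) →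
      2 * K.card ≤ ∑ b, min 2 (nb M K b) := by
  classical
  intro n
  induction n using Nat.strong_induction_on with
  | _ n ih =>
    intro K hn hb
    rcases K.eq_empty_or_nonempty with rfl | hK0
    · simp
    by_cases hK : KConn M K
    · exact ineq_conn M hc h3 h4 b₀ hb hK hK0
    · unfold KConn at hK
      push Not at hK
      obtain ⟨A, hAK, hA0, hAne, hA⟩ := hK
      have hlt : A ⊂ K := lt_of_le_of_ne hAK hAne
      have hc1 : A.card < n := by rw [← hn]; exact card_lt_card hlt
      have hc2 : (K \ A).card < n := by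
        rw [← hn]
        refine card_lt_card ⟨sdiff_subset, fun h => ?_⟩
        obtain ⟨a, ha⟩ := hA0
        have := h (hAK ha)
        exact (mem_sdiff.1 this).2 ha
      have i1 := ih _ hc1 A rfl (fun j h => hb j (hAK h))
      have i2 := ih _ hc2 (K \ A) rfl (fun j h => hb j (sdiff_subset h))
      have hcard : K.card = A.card + (K \ A).card := by
        rw [add_comm, card_sdiff_add_card_eq_card hAK]
      have hsum : ∑ b, min 2 (nb M K b) =
          ∑ b, min 2 (nb M A b) + ∑ b, min 2 (nb M (K \ A) b) := by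
        rw [← sum_add_distrib]
        refine sum_congr rfl fun b _ => ?_
        by_cases hbA : ∃ i, M.c i b ∈ A
        · obtain ⟨i, hi⟩ := hbA
          have e1 : nb M (K \ A) b = 0 := by
            unfold nb
            rw [card_eq_zero, filter_eq_empty_iff]
            rintro j - hj
            exact (mem_sdiff.1 hj).2 (hA b i j hi (mem_sdiff.1 hj).1)
          have e2 : nb M K b = nb M A b := by
            unfold nb
            congr 1
            ext j
            simp only [mem_filter, mem_univ, true_and]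
            exact ⟨fun hj => hA b i j hi hj, fun hj => hAK hj⟩
          rw [e1, e2]
          simp
        · push Not at hbA
          have e1 : nb M A b = 0 := by
            unfold nb
            rw [card_eq_zero, filter_eq_empty_iff]
            rintro j - hj
            exact hbA j hj
          have e2 : nb M K b = nb M (K \ A) b := by
            unfold nb
            congr 1
            ext j
            simp only [mem_filter, mem_univ, true_and, mem_sdiff]
            exact ⟨fun hj => ⟨hj, hbA j⟩, fun hj => hj.1⟩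
          rw [e1, e2]
          simp
      omega

theorem pairStmt : Bz.PairStmt := by
  classical
  intro B W V _ _ _ M hM h3 h4 b₀
  have hcard : Fintype.card (Bz.BOff b₀) = Fintype.card (Bz.VOff M b₀) := by
    have h1 : Fintype.card (Bz.BOff b₀) = Fintype.card B - 1 := by
      rw [Fintype.card_subtype_compl, Fintype.card_subtype_eq]
    have h2 : Fintype.card (Bz.VOff M b₀) = Fintype.card V - 3 := by
      have h5 : (univ.filter fun v => ∀ j, M.c j b₀ ≠ v) =
          univ \ (univ.image fun j => M.c j b₀) := by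
        ext v
        simp
      rw [Fintype.card_subtype, h5, card_sdiff_of_subset (subset_univ _), card_univ,
        card_image_of_injective _ (fun i j h => M.cls _ _ _ _ h), card_univ, Fintype.card_fin]
    have h6 := hM.card
    have h7 : 0 < Fintype.card B := Fintype.card_pos_iff.2 ⟨b₀⟩
    omega
  obtain ⟨f, g, e, e', hfg, he, he'⟩ := H484.two_matchings_option (Bz.Fo M b₀) hcard (by
    intro K
    have h5 := ineq_all M hM.conn h3 h4 b₀ _ (K.map (Function.Embedding.subtype _)) rfl (by
      intro j hj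
      obtain ⟨v, -, hv⟩ := mem_map.1 hj
      exact v.2 j hv.symm)
    rw [card_map] at h5
    refine h5.trans (le_of_eq ?_)
    rw [Fintype.sum_eq_add_sum_subtype_ne _ b₀]
    have h6 : nb M (K.map (Function.Embedding.subtype _)) b₀ = 0 := by
      unfold nb
      rw [card_eq_zero, filter_eq_empty_iff]
      rintro j - hj
      obtain ⟨v, -, hv⟩ := mem_map.1 hj
      exact v.2 j hv.symm
    rw [h6, Nat.min_zero, zero_add]
    refine sum_congr rfl fun b _ => ?_
    congr 1
    unfold nb
    congr 1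
    ext j
    simp only [mem_filter, mem_univ, true_and]
    unfold Bz.Fo
    constructor
    · intro hj
      obtain ⟨v, hv, hv2⟩ := mem_map.1 hj
      refine ⟨v, hv, ?_⟩
      have hv3 : v.1 = M.c j b.1 := hv2
      have hcnd : ∀ i, M.c i b₀ ≠ M.c j b.1 := by
        intro i
        rw [← hv3]
        exact v.2 i
      rw [dif_pos hcnd]
      congr 1
      exact Subtype.ext hv3.symm
    · rintro ⟨v, hv, hv2⟩
      split_ifs at hv2 with hcnd
      have := Option.some.inj hv2
      rw [mem_map]
      exact ⟨v, hv, by rw [← this]; rfl⟩)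
  exact ⟨f, g, ⟨e, he⟩, ⟨e', he'⟩, hfg⟩

end Vale.Agent.P039.H44
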